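import Vale.Agent.P281.H64.TS.Spec
import Vale.Agent.P281.H864.K.Compat
import Vale.Agent.P272.K.INT.Wirt

/-!
# P281, project T-S, block C3 (helper842): `∂̄` of `(0,1)`-forms on `ℂ²` and holomorphic maps
-/

open Set Filter Metric MeasureTheory Vale.Agent.P272.K
open scoped Topology ContDiff ComplexConjugate

noncomputable section

namespace Vale.Agent.P281.H842.TS

open Vale.Agent.P281.H64.TK

section wirt

variable {d : ℕ}

theorem dzb_comp {φ : Cm d → ℂ} {θ : Cm d → Cm d} {z : Cm d}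
    (hφ : DifferentiableAt ℝ φ (θ z)) (hθ : DifferentiableAt ℂ θ z) (k : Fin d) :
    dzb k (fun u => φ (θ u)) z = ∑ m, dzb m φ (θ z) * conj (jac θ z m k) := by
  have h1 : fderiv ℝ (fun u => φ (θ u)) z = (fderiv ℝ φ (θ z)).comp
      ((fderiv ℂ θ z).restrictScalars ℝ) :=
    (hφ.hasFDerivAt.comp z (hθ.hasFDerivAt.restrictScalars ℝ)).fderiv
  have h2 : ∀ v : Cm d, fderiv ℝ (fun u => φ (θ u)) z v =
      ∑ m, (fderiv ℂ θ z v m * dz m φ (θ z) + conj (fderiv ℂ θ z v m) * dzb m φ (θ z)) := by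
    intro v
    rw [h1]
    exact INT.fderiv_apply _
  have h3 : (Pi.single k Complex.I : Cm d) = Complex.I • Pi.single k 1 := by
    rw [← Pi.single_smul, smul_eq_mul, mul_one]
  have h4 : ∀ m, fderiv ℂ θ z (Pi.single k Complex.I) m = Complex.I * jac θ z m k := by
    intro m
    rw [h3, map_smul]
    rfl
  have h5 : ∀ m, fderiv ℂ θ z (Pi.single k 1) m = jac θ z m k := fun m => rfl
  show (fderiv ℝ (fun u => φ (θ u)) z (Pi.single k 1) +
    Complex.I * fderiv ℝ (fun u => φ (θ u)) z (Pi.single k Complex.I)) / 2 = _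
  rw [h2, h2]
  simp only [h4, h5]
  rw [Finset.mul_sum, ← Finset.sum_add_distrib, Finset.sum_div]
  refine Finset.sum_congr rfl fun m _ => ?_
  rw [map_mul, Complex.conj_I]
  linear_combination (jac θ z m k * dz m φ (θ z) / 2 -
    conj (jac θ z m k) * dzb m φ (θ z) / 2) * Complex.I_mul_I

theorem jac_eq_dz {θ : Cm d → Cm d} {u : Cm d} (h : DifferentiableAt ℂ θ u) (l k : Fin d) :
    jac θ u l k = dz k (fun y => θ y l) u := by
  have h1 : HasFDerivAt (fun y => θ y l)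
      (((ContinuousLinearMap.proj l : Cm d →L[ℂ] ℂ).comp (fderiv ℂ θ u)).restrictScalars ℝ) u :=
    (((ContinuousLinearMap.proj l : Cm d →L[ℂ] ℂ).hasFDerivAt.comp u
      h.hasFDerivAt).restrictScalars ℝ)
  have h2 : ∀ v : Cm d, fderiv ℝ (fun y => θ y l) u v = fderiv ℂ θ u v l := by
    intro v
    rw [h1.fderiv]
    rfl
  have h3 : (Pi.single k Complex.I : Cm d) = Complex.I • Pi.single k 1 := by
    rw [← Pi.single_smul, smul_eq_mul, mul_one]
  show _ = (fderiv ℝ (fun y => θ y l) u (Pi.single k 1) -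
    Complex.I * fderiv ℝ (fun y => θ y l) u (Pi.single k Complex.I)) / 2
  rw [h2, h2, h3, map_smul]
  show fderiv ℂ θ u (Pi.single k 1) l = (fderiv ℂ θ u (Pi.single k 1) l -
    Complex.I * (Complex.I * fderiv ℂ θ u (Pi.single k 1) l)) / 2
  linear_combination (fderiv ℂ θ u (Pi.single k 1) l / 2) * Complex.I_mul_I

theorem smooth_jac {θ : Cm d → Cm d} {z : Cm d} (h : AnalyticAt ℂ θ z) (l k : Fin d) :
    ContDiffAt ℝ ∞ (fun u => jac θ u l k) z := by
  have h0 : ContDiffAt ℂ ω θ z := h.contDiffAt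
  have h1 : ContDiffAt ℂ ω (fderiv ℂ θ) z := h0.fderiv_right (m := ω) le_top
  have h2 : ContDiffAt ℂ ω (fun u => fderiv ℂ θ u (Pi.single k 1)) z :=
    h1.clm_apply contDiffAt_const
  exact ((contDiffAt_pi.1 h2 l).restrict_scalars ℝ).of_le le_top

theorem smooth_comp {θ : Cm d → Cm d} {z : Cm d} (h : AnalyticAt ℂ θ z) {n : WithTop ℕ∞} :
    ContDiffAt ℝ n θ z := by
  have h0 : ContDiffAt ℂ ω θ z := h.contDiffAt
  exact (h0.restrict_scalars ℝ).of_le le_top

theorem dz_jac {θ : Cm d → Cm d} {z : Cm d} (h : AnalyticAt ℂ θ z) (l k m : Fin d) :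
    dz m (fun u => jac θ u l k) z = dz k (fun u => jac θ u l m) z := by
  have h1 : ∀ᶠ u in 𝓝 z, DifferentiableAt ℂ θ u :=
    h.eventually_analyticAt.mono fun u hu => hu.differentiableAt
  have h2 : ∀ k, (fun u => jac θ u l k) =ᶠ[𝓝 z] dz k (fun y => θ y l) :=
    fun k => h1.mono fun u hu => jac_eq_dz hu l k
  rw [INT.dz_congr (h2 k), INT.dz_congr (h2 m)]
  exact INT.dz_dz_comm (contDiffAt_pi.1 (smooth_comp h) l)

end wirt

/-- `∂̄` of a `(0,1)`-form on `ℂ²` -/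
def db2 (b : Cm 2 → Fin 2 → ℂ) (z : Cm 2) : ℂ :=
  dzb 0 (fun u => b u 1) z - dzb 1 (fun u => b u 0) z

theorem db2_congr {b c : Cm 2 → Fin 2 → ℂ} {z : Cm 2} (h : ∀ᶠ u in 𝓝 z, b u = c u) :
    db2 b z = db2 c z := by
  unfold db2
  have h1 : ∀ l, (fun u => b u l) =ᶠ[𝓝 z] fun u => c u l := fun l => h.mono fun u hu =>
    congrFun hu l
  rw [INT.dzb_congr (h1 1), INT.dzb_congr (h1 0)]

theorem db2_add {b c : Cm 2 → Fin 2 → ℂ} {z : Cm 2}
    (hb : ∀ l, DifferentiableAt ℝ (fun u => b u l) z)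
    (hc : ∀ l, DifferentiableAt ℝ (fun u => c u l) z) :
    db2 (fun u l => b u l + c u l) z = db2 b z + db2 c z := by
  unfold db2
  rw [INT.dzb_add (hb 1) (hc 1), INT.dzb_add (hb 0) (hc 0)]
  ring

theorem db2_const_mul (a : ℂ) {b : Cm 2 → Fin 2 → ℂ} {z : Cm 2}
    (hb : ∀ l, DifferentiableAt ℝ (fun u => b u l) z) :
    db2 (fun u l => a * b u l) z = a * db2 b z := by
  unfold db2
  rw [INT.dzb_const_mul a (hb 1), INT.dzb_const_mul a (hb 0)]
  ring

theorem db2_zero (z : Cm 2) : db2 (fun _ _ => 0) z = 0 := by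
  unfold db2
  simp

theorem smooth_db2 {b : Cm 2 → Fin 2 → ℂ} {z : Cm 2} (hb : ContDiffAt ℝ ∞ b z) :
    ContDiffAt ℝ ∞ (db2 b) z :=
  (INT.smooth_dzb (contDiffAt_pi.1 hb 1)).sub (INT.smooth_dzb (contDiffAt_pi.1 hb 0))

/-- the pull-back of a `(0,1)`-form -/
theorem db2_comp {b : Cm 2 → Fin 2 → ℂ} {θ : Cm 2 → Cm 2} {z : Cm 2} (hθ : AnalyticAt ℂ θ z)
    (hb : ∀ l, DifferentiableAt ℝ (fun u => b u l) (θ z)) :
    db2 (fun u k => ∑ l, b (θ u) l * conj (jac θ u l k)) z =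
      db2 b (θ z) * conj (jac θ z).det := by
  have hd : DifferentiableAt ℂ θ z := hθ.differentiableAt
  have h1 : ∀ l, DifferentiableAt ℝ (fun u => b (θ u) l) z := fun l =>
    DifferentiableAt.comp z (hb l) (hd.restrictScalars ℝ)
  have h2 : ∀ l k, DifferentiableAt ℝ (fun u => conj (jac θ u l k)) z := fun l k => by
    have h3 : DifferentiableAt ℝ (fun u => jac θ u l k) z :=
      (smooth_jac hθ l k).differentiableAt (by simp)
    exact Complex.conjCLE.differentiableAt.comp z h3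
  have h4 : ∀ l k, dzb k (fun u => b (θ u) l) z =
      dzb 0 (fun u => b u l) (θ z) * conj (jac θ z 0 k) +
      dzb 1 (fun u => b u l) (θ z) * conj (jac θ z 1 k) := by
    intro l k
    rw [dzb_comp (φ := fun u => b u l) (hb l) hd k, Fin.sum_univ_two]
  unfold db2
  simp only [Fin.sum_univ_two]
  rw [INT.dzb_add ((h1 0).fun_mul (h2 0 1)) ((h1 1).fun_mul (h2 1 1)),
    INT.dzb_add ((h1 0).fun_mul (h2 0 0)) ((h1 1).fun_mul (h2 1 0)),
    INT.dzb_mul (h1 0) (h2 0 1), INT.dzb_mul (h1 1) (h2 1 1),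
    INT.dzb_mul (h1 0) (h2 0 0), INT.dzb_mul (h1 1) (h2 1 0),
    INT.dzb_conj, INT.dzb_conj, INT.dzb_conj, INT.dzb_conj,
    dz_jac hθ 0 1 0, dz_jac hθ 1 1 0, h4, h4, h4, h4, Matrix.det_fin_two, map_sub, map_mul,
    map_mul]
  ring

end Vale.Agent.P281.H842.TS
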