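import Vale.Agent.P281.H842.TS.Tt
import Vale.Agent.P271.H408.Weyl

/-!
# P281, project T-S, block C3 (helper842): `(0,2)`-forms orthogonal to the holomorphic 2-forms
-/

open Set Filter Metric MeasureTheory Vale.Agent.P272.K
open scoped Topology ContDiff ComplexConjugate ENNReal InnerProductSpace

set_option linter.unusedSectionVars false

noncomputable section

namespace Vale.Agent.P281.H842.TS

open Vale.Agent.P281.H64.TK
open Vale.Agent.P281.H864.K (V co co_eq exists_P P_disj P_subset P_subset3 meas_P piece Nice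
  nice_self jd det_fderiv_real isOpen_V isClosed_V uniq ball13)

variable {E Γ : Type} [TopologicalSpace E] [Group Γ] [Subsingleton Γ] [MulAction Γ E]
  {S : Sheets 2 E Γ} {i j : Fin S.N} {z w : Cm 2}

/-- a smooth `(0,1)`-form -/
structure F01 (S : Sheets 2 E Γ) (b : Fin S.N → Cm 2 → Fin 2 → ℂ) : Prop where
  smooth : ∀ i, ContDiffOn ℝ ∞ (b i) (ball 0 3)
  change : ∀ i j, ∀ z ∈ UU S i j, ∀ k, b i z k =
    ∑ l, b j (tt S i j z) l * conj (jac (tt S i j) z l k)

theorem F01.at {b : Fin S.N → Cm 2 → Fin 2 → ℂ} (h : F01 S b) (i : Fin S.N)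
    (hz : z ∈ ball (0 : Cm 2) 3) : ContDiffAt ℝ ∞ (b i) z :=
  (h.smooth i).contDiffAt (isOpen_ball.mem_nhds hz)

theorem F01.diff {b : Fin S.N → Cm 2 → Fin 2 → ℂ} (h : F01 S b) (i : Fin S.N)
    (hz : z ∈ ball (0 : Cm 2) 3) (l : Fin 2) : DifferentiableAt ℝ (fun u => b i u l) z :=
  (contDiffAt_pi.1 (h.at i hz) l).differentiableAt (by simp)

theorem F01.full {b : Fin S.N → Cm 2 → Fin 2 → ℂ} (h : F01 S b) :
    ∀ i j, ∀ z ∈ ball (0 : Cm 2) 3, ∀ z' ∈ ball (0 : Cm 2) 3, ∀ θ : Cm 2 → Cm 2,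
      AnalyticAt ℂ θ z → θ z = z' → (∀ᶠ u in 𝓝 z, S.σ i u = S.σ j (θ u)) →
        ∀ k, b i z k = ∑ l, b j z' l * conj (jac θ z l k) := by
  intro i j z hz z' hz' θ hθ hθz hev k
  have h1 : tt S i j =ᶠ[𝓝 z] θ := tt_loc hθ.continuousAt (by rw [hθz]; exact hz') hev
  have h2 : z ∈ UU S i j := mem_UU hz hz' (by rw [hev.self_of_nhds, hθz])
  rw [h.change i j z h2 k, h1.self_of_nhds, hθz, Vale.Agent.P281.H864.K.jac_congr h1]

theorem F01.cont {b : Fin S.N → Cm 2 → Fin 2 → ℂ} (h : F01 S b) (i : Fin S.N) :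
    ContinuousOn (db2 (b i)) (ball 0 3) := fun _ hz =>
  (smooth_db2 (h.at i hz)).continuousAt.continuousWithinAt

theorem F01.db {b : Fin S.N → Cm 2 → Fin 2 → ℂ} (h : F01 S b) :
    IsForm S (fun i => db2 (b i)) := by
  intro i j z hz
  have h1 : ∀ᶠ u in 𝓝 z, b i u =
      fun k => ∑ l, b j (tt S i j u) l * conj (jac (tt S i j) u l k) :=
    mem_of_superset (isOpen_UU.mem_nhds hz) fun u hu => funext fun k => h.change i j u hu k
  show db2 (b i) z = _
  rw [db2_congr h1]
  exact db2_comp (tt_an hz) fun l => h.diff j (tt_spec hz).1 l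

/-! ### `(0,1)`-forms with support in one sheet -/

open Classical in
/-- the `(0,1)`-form `φ conj(dz_m)` of the sheet `j` -/
def ext (S : Sheets 2 E Γ) (j : Fin S.N) (φ : Cm 2 → ℂ) (m : Fin 2) (i : Fin S.N) (z : Cm 2)
    (k : Fin 2) : ℂ :=
  if z ∈ UU S i j then φ (tt S i j z) * conj (jac (tt S i j) z m k) else 0

theorem ext_eq (φ : Cm 2 → ℂ) (m : Fin 2) (h : z ∈ UU S i j) (k : Fin 2) :
    ext S j φ m i z k = φ (tt S i j z) * conj (jac (tt S i j) z m k) := if_pos h

theorem ext_ev {φ : Cm 2 → ℂ} (hc : HasCompactSupport φ) (hs : tsupport φ ⊆ ball 0 3) (m : Fin 2)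
    (hz : z ∈ ball (0 : Cm 2) 3) (h : z ∉ UU S i j) :
    ∀ᶠ u in 𝓝 z, ext S j φ m i u = fun _ => 0 := by
  obtain ⟨r, hr, hr'⟩ := exists_lt_subset_ball (isClosed_tsupport φ) hs
  have h1 : S.σ i z ∈ (V S j (closedBall 0 r))ᶜ := by
    intro h2
    obtain ⟨w, hw, he⟩ := mem_V1.1 h2
    exact h (mem_UU hz (closedBall_subset_ball hr hw) he.symm)
  have h2 : Tendsto (S.σ i) (𝓝 z) (𝓝 (S.σ i z)) := (S.map_nhds i z hz).le
  filter_upwards [h2.eventually ((isClosed_V hr).isOpen_compl.mem_nhds h1)] with u hu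
  funext k
  by_cases hU : u ∈ UU S i j
  · have h3 : φ (tt S i j u) = 0 := by
      refine image_eq_zero_of_notMem_tsupport fun hcon => ?_
      exact hu (mem_V1.2 ⟨_, ball_subset_closedBall (hr' hcon), (tt_spec hU).2.symm⟩)
    rw [ext_eq φ m hU, h3, zero_mul]
  · exact if_neg hU

theorem ext_f {φ : Cm 2 → ℂ} (hφ : ContDiff ℝ ∞ φ) (hc : HasCompactSupport φ)
    (hs : tsupport φ ⊆ ball 0 3) (j : Fin S.N) (m : Fin 2) : F01 S (ext S j φ m) where
  smooth := by
    intro i z hz
    refine ContDiffAt.contDiffWithinAt ?_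
    by_cases h : z ∈ UU S i j
    · rw [contDiffAt_pi]
      intro k
      have h1 : (fun u => ext S j φ m i u k) =ᶠ[𝓝 z]
          fun u => φ (tt S i j u) * conj (jac (tt S i j) u m k) :=
        mem_of_superset (isOpen_UU.mem_nhds h) fun u hu => ext_eq φ m hu k
      refine ContDiffAt.congr_of_eventuallyEq ?_ h1
      refine ContDiffAt.mul ?_ ?_
      · exact hφ.contDiffAt.comp z (smooth_comp (tt_an h))
      · exact Complex.conjCLE.contDiff.contDiffAt.comp z (smooth_jac (tt_an h) m k)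
    · exact (contDiffAt_const (c := fun _ => 0)).congr_of_eventuallyEq (ext_ev hc hs m hz h)
  change := by
    intro i i' z hz k
    by_cases h : z ∈ UU S i j
    · have h1 : tt S i i' z ∈ UU S i' j := tt_mem' hz h
      rw [ext_eq φ m h, jac_trans hz h1, Matrix.mul_apply, map_sum, Finset.mul_sum,
        (tt_trans hz h1).2]
      refine Finset.sum_congr rfl fun l _ => ?_
      rw [ext_eq φ m h1, map_mul]
      ring
    · have h1 : tt S i i' z ∉ UU S i' j := fun h1 => h (tt_trans hz h1).1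
      have h2 : ∀ l, ext S j φ m i' (tt S i i' z) l = 0 := fun l => if_neg h1
      rw [show ext S j φ m i z k = 0 from if_neg h]
      simp only [h2, zero_mul, Finset.sum_const_zero]

theorem ext_self (φ : Cm 2 → ℂ) (m : Fin 2) (hz : z ∈ ball (0 : Cm 2) 3) :
    ∀ᶠ u in 𝓝 z, ext S j φ m j u = fun k => φ u * (if m = k then 1 else 0) := by
  filter_upwards [isOpen_ball.mem_nhds hz] with u hu
  funext k
  rw [ext_eq φ m (mem_UU_self hu), tt_self hu, jac_self hu, Matrix.one_apply]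
  split_ifs <;> simp

theorem db_ext_zero (φ : Cm 2 → ℂ) (hz : z ∈ ball (0 : Cm 2) 3) :
    db2 (ext S j φ 0 j) z = - dzb 1 φ z := by
  rw [db2_congr (ext_self φ 0 hz)]
  unfold db2
  simp

theorem db_ext_one (φ : Cm 2 → ℂ) (hz : z ∈ ball (0 : Cm 2) 3) :
    db2 (ext S j φ 1 j) z = dzb 0 φ z := by
  rw [db2_congr (ext_self φ 1 hz)]
  unfold db2
  simp

variable [ContinuousConstSMul Γ E]

variable (S) in
/-- the image of `∂̄` -/
def R : Submodule ℂ (HS S) where
  carrier := {x | ∃ b, F01 S b ∧ ∀ i,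
    ((x i : Lp ℂ 2 (volume.restrict (S.P i))) : Cm 2 → ℂ) =ᵐ[volume.restrict (S.P i)] db2 (b i)}
  add_mem' := by
    rintro x y ⟨u, hu, hx⟩ ⟨v, hv, hy⟩
    refine ⟨fun i z l => u i z l + v i z l, ⟨fun i => ?_, fun i j z hz k => ?_⟩, fun i => ?_⟩
    · exact (hu.smooth i).add (hv.smooth i)
    · show u i z k + v i z k =
        ∑ l, (u j (tt S i j z) l + v j (tt S i j z) l) * conj (jac (tt S i j) z l k)
      rw [hu.change i j z hz k, hv.change i j z hz k, ← Finset.sum_add_distrib]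
      exact Finset.sum_congr rfl fun l _ => by ring
    · have h1 : (x + y) i = x i + y i := rfl
      rw [h1]
      filter_upwards [Lp.coeFn_add (x i) (y i), hx i, hy i, ae_restrict_mem (meas_P S i)]
        with z h2 h3 h4 h5
      rw [h2, Pi.add_apply, h3, h4]
      exact (db2_add (hu.diff i (P_subset3 S i h5)) (hv.diff i (P_subset3 S i h5))).symm
  zero_mem' := by
    refine ⟨fun _ _ _ => 0, ⟨fun i => contDiffOn_const, fun i j z hz k => by simp⟩, fun i => ?_⟩
    have h1 : (0 : HS S) i = 0 := rfl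
    rw [h1]
    filter_upwards [Lp.coeFn_zero ℂ 2 (volume.restrict (S.P i))] with z h2
    rw [h2]
    exact (db2_zero z).symm
  smul_mem' := by
    rintro c x ⟨u, hu, hx⟩
    refine ⟨fun i z l => c * u i z l, ⟨fun i => ?_, fun i j z hz k => ?_⟩, fun i => ?_⟩
    · exact (hu.smooth i).const_smul c
    · show c * u i z k = ∑ l, (c * u j (tt S i j z) l) * conj (jac (tt S i j) z l k)
      rw [hu.change i j z hz k, Finset.mul_sum]
      exact Finset.sum_congr rfl fun l _ => by ring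
    · have h1 : (c • x) i = c • x i := rfl
      rw [h1]
      filter_upwards [Lp.coeFn_smul c (x i), hx i, ae_restrict_mem (meas_P S i)]
        with z h2 h3 h5
      rw [h2, Pi.smul_apply, h3, smul_eq_mul]
      exact (db2_const_mul c (hu.diff i (P_subset3 S i h5))).symm

theorem mem_R {b : Fin S.N → Cm 2 → Fin 2 → ℂ} (h : F01 S b) : vec (fun i => h.cont i) ∈ R S :=
  ⟨b, h, fun i => vec_coe _ i⟩

theorem bdd_P {G : Cm 2 → ℂ} (hG : ContinuousOn G (ball 0 3)) (i : Fin S.N) :
    ∃ C, ∀ z ∈ S.P i, ‖G z‖ ≤ C := by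
  obtain ⟨C, hC⟩ := (isCompact_closedBall (0 : Cm 2) 1).exists_bound_of_continuousOn
    (hG.mono (closedBall_subset_ball (by norm_num)))
  exact ⟨C, fun z hz => hC z (ball_subset_closedBall (P_subset S i hz))⟩

/-- the pairing with `∂̄` of a form with support in the sheet `j` -/
theorem pair_eq {b : Fin S.N → Cm 2 → Fin 2 → ℂ} (h : F01 S b) (j : Fin S.N)
    (h0 : ∀ i, ∀ z ∈ S.P i, z ∉ UU S i j → db2 (b i) z = 0)
    {C : ℝ} (hC : ∀ z ∈ ball (0 : Cm 2) 3, ‖db2 (b j) z‖ ≤ C) (η : HS S) :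
    ∑ i, ∫ z in S.P i, conj (db2 (b i) z) *
      ((η i : Lp ℂ 2 (volume.restrict (S.P i))) : Cm 2 → ℂ) z =
    ∫ z in ball 0 3, conj (db2 (b j) z) * Bf η j z := by
  have h1 : ∀ i, ∫ z in S.P i, conj (db2 (b i) z) *
      ((η i : Lp ℂ 2 (volume.restrict (S.P i))) : Cm 2 → ℂ) z =
      ∫ z in S.P i, conj (db2 (b i) z) * Bf η i z := fun i =>
    setIntegral_congr_fun (meas_P S i) fun z hz => by
      show _ = conj (db2 (b i) z) * Bf η i z
      rw [Bf_P η hz]
  simp only [h1]
  refine int_one (D := fun i z => conj (db2 (b i) z) * Bf η i z) j (fun i => ?_) ?_ ?_ ?_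
  · obtain ⟨C', hC'⟩ := bdd_P (h.cont i) i
    refine (Bf_int_P η i).bdd_mul (c := C') ?_ ?_
    · exact (Complex.continuous_conj.comp_continuousOn
        ((h.cont i).mono (P_subset3 S i))).aestronglyMeasurable (meas_P S i)
    · filter_upwards [ae_restrict_mem (meas_P S i)] with z hz
      rw [RCLike.norm_conj]
      exact hC' z hz
  · refine (Bf_int η j).bdd_mul (c := C) ?_ ?_
    · exact (Complex.continuous_conj.comp_continuousOn (h.cont j)).aestronglyMeasurable
        measurableSet_ball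
    · filter_upwards [ae_restrict_mem measurableSet_ball] with z hz
      rw [RCLike.norm_conj]
      exact hC z hz
  · intro i z hz
    show conj (db2 (b j) z) * Bf η j z = _
    have h2 : db2 (b j) z = db2 (b i) (tt S j i z) * conj (jac (tt S j i) z).det :=
      h.db j i z hz
    rw [h2, Bf_form η j i z hz, map_mul, Complex.conj_conj]
    have h3 : (jac (tt S j i) z).det * conj (jac (tt S j i) z).det =
        ((‖(jac (tt S j i) z).det‖ ^ 2 : ℝ) : ℂ) := by
      rw [Complex.mul_conj, Complex.normSq_eq_norm_sq]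
    rw [← h3]
    ring
  · intro i z hz hU
    show conj (db2 (b i) z) * Bf η i z = 0
    rw [h0 i z hz hU, map_zero, zero_mul]

theorem orth_eq {b : Fin S.N → Cm 2 → Fin 2 → ℂ} (h : F01 S b) (j : Fin S.N)
    (h0 : ∀ i, ∀ z ∈ S.P i, z ∉ UU S i j → db2 (b i) z = 0)
    {C : ℝ} (hC : ∀ z ∈ ball (0 : Cm 2) 3, ‖db2 (b j) z‖ ≤ C) {η : HS S}
    (hη : ∀ x ∈ R S, ⟪x, η⟫_ℂ = 0) :
    ∫ z in ball 0 3, conj (db2 (b j) z) * Bf η j z = 0 := by
  rw [← pair_eq h j h0 hC η, ← hη _ (mem_R h), PiLp.inner_apply]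
  refine Finset.sum_congr rfl fun i _ => ?_
  rw [L2.inner_def]
  refine integral_congr_ae ?_
  filter_upwards [vec_coe (S := S) (fun i => h.cont i) i] with z hz
  rw [RCLike.inner_apply', hz]

theorem bounded_dzb {φ : Cm 2 → ℂ} (hφ : ContDiff ℝ ∞ φ) (hc : HasCompactSupport φ) (m : Fin 2) :
    ∃ C, ∀ z, ‖dzb m φ z‖ ≤ C := by
  have h1 : Continuous (dzb m φ) := continuous_iff_continuousAt.2 fun z =>
    (INT.smooth_dzb hφ.contDiffAt).continuousAt
  have h2 : HasCompactSupport (dzb m φ) := by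
    refine HasCompactSupport.intro hc.isCompact fun z hz => ?_
    have h3 : φ =ᶠ[𝓝 z] fun _ => 0 := by
      filter_upwards [(isClosed_tsupport φ).isOpen_compl.mem_nhds hz] with u hu
      exact image_eq_zero_of_notMem_tsupport hu
    rw [INT.dzb_congr h3, INT.dzb_const]
  exact h1.bounded_above_of_compact_support h2

theorem weak_zero {η : HS S} (hη : ∀ x ∈ R S, ⟪x, η⟫_ℂ = 0) {φ : Cm 2 → ℂ}
    (hφ : ContDiff ℝ ∞ φ) (hc : HasCompactSupport φ) (hs : tsupport φ ⊆ ball 0 3) (j : Fin S.N)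
    (m : Fin 2) : ∫ z in ball 0 3, conj (dzb m φ z) * Bf η j z = 0 := by
  have hz0 : ∀ m' i, ∀ z ∈ S.P i, z ∉ UU S i j → db2 (ext S j φ m' i) z = 0 := by
    intro m' i z hz hU
    rw [db2_congr (ext_ev hc hs m' (P_subset3 S i hz) hU)]
    exact db2_zero z
  fin_cases m
  · obtain ⟨C, hC⟩ := bounded_dzb hφ hc 0
    have h1 := orth_eq (ext_f hφ hc hs j 1) j (hz0 1)
      (C := C) (fun z hz => by rw [db_ext_one φ hz]; exact hC z) hη
    rw [← h1]
    refine setIntegral_congr_fun measurableSet_ball fun z hz => ?_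
    show conj (dzb 0 φ z) * Bf η j z = conj (db2 (ext S j φ 1 j) z) * Bf η j z
    rw [db_ext_one φ hz]
  · obtain ⟨C, hC⟩ := bounded_dzb hφ hc 1
    have h1 := orth_eq (ext_f hφ hc hs j 0) j (hz0 0)
      (C := C) (fun z hz => by rw [db_ext_zero φ hz, norm_neg]; exact hC z) hη
    rw [← neg_eq_zero, ← h1, ← integral_neg]
    refine setIntegral_congr_fun measurableSet_ball fun z hz => ?_
    show -(conj (dzb 1 φ z) * Bf η j z) = conj (db2 (ext S j φ 0 j) z) * Bf η j z
    rw [db_ext_zero φ hz, map_neg, neg_mul]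

/-- **Weyl's lemma**: a form orthogonal to the image of `∂̄` is antiholomorphic. -/
theorem exists_holo {η : HS S} (hη : ∀ x ∈ R S, ⟪x, η⟫_ℂ = 0) (j : Fin S.N) :
    ∃ f : Cm 2 → ℂ, DifferentiableOn ℂ f (ball 0 3) ∧
      (fun z => conj (Bf η j z)) =ᵐ[volume.restrict (ball 0 3)] f := by
  refine Vale.Agent.P271.H408.weyl_local isOpen_ball ?_ ?_
  · refine IntegrableOn.locallyIntegrableOn ?_
    refine ⟨Complex.continuous_conj.comp_aestronglyMeasurable (aesm_Bf η j), ?_⟩
    refine (Bf_int η j).2.congr' (Eventually.of_forall fun z => ?_)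
    rw [RCLike.norm_conj]
  · intro κ h1 h2 h3 m
    have h4 := weak_zero hη h1 h2 h3 j m
    have h5 : ∫ z, conj (Bf η j z) * Vale.Agent.P282.L2.dzb m κ z =
        ∫ z in ball 0 3, conj (Bf η j z) * dzb m κ z := by
      refine (setIntegral_eq_integral_of_forall_compl_eq_zero fun z hz => ?_).symm
      have h6 : dzb m κ z = 0 := by
        have h7 : κ =ᶠ[𝓝 z] fun _ => 0 := by
          filter_upwards [(isClosed_tsupport κ).isOpen_compl.mem_nhds
            (fun h => hz (h3 h))] with u hu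
          exact image_eq_zero_of_notMem_tsupport hu
        rw [INT.dzb_congr h7, INT.dzb_const]
      show conj (Bf η j z) * dzb m κ z = 0
      rw [h6, mul_zero]
    rw [h5]
    have h6 : conj (∫ z in ball 0 3, conj (dzb m κ z) * Bf η j z) =
        ∫ z in ball 0 3, conj (Bf η j z) * dzb m κ z := by
      rw [← integral_conj]
      refine integral_congr_ae (Eventually.of_forall fun z => ?_)
      show conj (conj (dzb m κ z) * Bf η j z) = _
      rw [map_mul, Complex.conj_conj, mul_comm]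
    rw [← h6, h4, map_zero]

/-- the holomorphic 2-form -/
theorem exists_holD {η : HS S} (hη : ∀ x ∈ R S, ⟪x, η⟫_ℂ = 0) :
    ∃ s, TS.HolD S s ∧ ∀ i, (fun z => conj (((η i : Lp ℂ 2 (volume.restrict (S.P i))) :
      Cm 2 → ℂ) z)) =ᵐ[volume.restrict (S.P i)] s i := by
  choose s hs hs' using fun j => exists_holo hη j
  refine ⟨s, ⟨hs, ?_⟩, fun i => ?_⟩
  · intro i j z hz z' hz' θ hθ hθz hev
    have h1 : tt S i j =ᶠ[𝓝 z] θ := tt_loc hθ.continuousAt (by rw [hθz]; exact hz') hev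
    have h2 : z ∈ UU S i j := mem_UU hz hz' (by rw [hev.self_of_nhds, hθz])
    have key : EqOn (s i) (fun u => s j (tt S i j u) * (jac (tt S i j) u).det) (UU S i j) := by
      refine Vale.Agent.P271.H408.eqOn_of_ae (μ := (volume : Measure (Cm 2))) isOpen_UU
        ((hs i).continuousOn.mono UU_sub) ?_ ?_
      · refine ContinuousOn.mul ?_ cont_det
        exact (hs j).continuousOn.comp cont_tt fun u hu => (tt_spec hu).1
      · have h3 := (ae_restrict_iff' measurableSet_ball).1 (hs' i)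
        have h4 := (ae_restrict_iff' measurableSet_ball).1 (hs' j)
        -- the preimage of the exceptional set of the sheet `j`
        have h5 : ∀ᵐ u ∂(volume : Measure (Cm 2)), u ∈ UU S i j →
            conj (Bf η j (tt S i j u)) = s j (tt S i j u) := by
          rw [ae_iff] at h4 ⊢
          have h6 : {u | ¬ (u ∈ UU S i j → conj (Bf η j (tt S i j u)) = s j (tt S i j u))} ⊆
              tt S j i '' ({w | ¬ (w ∈ ball (0 : Cm 2) 3 → conj (Bf η j w) = s j w)} ∩
                UU S j i) := by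
            intro u hu
            simp only [mem_ofPred_eq, Classical.not_imp] at hu
            refine ⟨tt S i j u, ⟨?_, (tt_symm hu.1).1⟩, (tt_symm hu.1).2⟩
            simp only [mem_ofPred_eq, Classical.not_imp]
            exact ⟨(tt_spec hu.1).1, hu.2⟩
          refine measure_mono_null h6 ?_
          refine addHaar_image_eq_zero_of_differentiableOn_of_addHaar_eq_zero _ ?_ ?_
          · intro u hu
            exact ((tt_an hu.2).differentiableAt.restrictScalars ℝ).differentiableWithinAt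
          · exact measure_mono_null inter_subset_left h4
        filter_upwards [h3, h5] with u a1 a2 a3
        rw [← a1 a3.1, ← a2 a3, Bf_form η i j u a3, map_mul, Complex.conj_conj]
    have h3 := key h2
    simp only at h3
    rw [h3, h1.self_of_nhds, hθz, Vale.Agent.P281.H864.K.jac_congr h1]
  · have h1 : (fun z => conj (Bf η i z)) =ᵐ[volume.restrict (S.P i)] s i :=
      ae_restrict_of_ae_restrict_of_subset (P_subset3 S i) (hs' i)
    filter_upwards [h1, ae_restrict_mem (meas_P S i)] with z hz hz'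
    rw [← hz, Bf_P η hz']

theorem norm_sq_HS (x : HS S) : ‖x‖ ^ 2 = ∑ i, ∫ z in S.P i,
    ‖((x i : Lp ℂ 2 (volume.restrict (S.P i))) : Cm 2 → ℂ) z‖ ^ 2 := by
  rw [PiLp.norm_sq_eq_of_L2]
  refine Finset.sum_congr rfl fun i _ => ?_
  have h1 : ((‖x i‖ ^ 2 : ℝ) : ℂ) = ⟪x i, x i⟫_ℂ := by
    rw [inner_self_eq_norm_sq_to_K]
    push_cast
    rfl
  have h2 : ⟪x i, x i⟫_ℂ = ((∫ z in S.P i,
      ‖((x i : Lp ℂ 2 (volume.restrict (S.P i))) : Cm 2 → ℂ) z‖ ^ 2 : ℝ) : ℂ) := by
    rw [L2.inner_def, ← integral_complex_ofReal]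
    refine integral_congr_ae (Eventually.of_forall fun z => ?_)
    show ⟪_, _⟫_ℂ = _
    rw [inner_self_eq_norm_sq_to_K]
    push_cast
    rfl
  rw [h2] at h1
  exact_mod_cast h1

/-- **Block C3** -/
theorem hodge02 : TS.Hodge02Stmt := by
  intro E Γ _ _ _ _ _ _ S a hsm hch hor ε hε
  have ha : ∀ i, ContinuousOn (a i) (ball 0 3) := fun i => (hsm i).continuousOn
  have h1 : vec ha ∈ (R S)ᗮᗮ := by
    rw [Submodule.mem_orthogonal]
    intro η hη
    rw [Submodule.mem_orthogonal] at hη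
    obtain ⟨s, hs, hs'⟩ := exists_holD hη
    have h2 := hor s hs
    rw [PiLp.inner_apply, ← h2]
    refine Finset.sum_congr rfl fun i _ => ?_
    rw [L2.inner_def]
    refine integral_congr_ae ?_
    filter_upwards [vec_coe (S := S) ha i, hs' i] with z h3 h4
    rw [RCLike.inner_apply', h3, ← h4, mul_comm]
  rw [Submodule.orthogonal_orthogonal_eq_closure] at h1
  have h2 : vec ha ∈ closure ((R S : Submodule ℂ (HS S)) : Set (HS S)) := h1
  rw [Metric.mem_closure_iff] at h2
  obtain ⟨x, ⟨b, hb, hx⟩, hd⟩ := h2 (Real.sqrt ε) (Real.sqrt_pos.2 hε)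
  refine ⟨b, hb.smooth, hb.full, ?_⟩
  have h3 : (S.int fun i z => ((‖a i z - (dzb 0 (fun u => b i u 1) z -
      dzb 1 (fun u => b i u 0) z)‖ ^ 2 : ℝ) : ℂ)).re = ‖vec ha - x‖ ^ 2 := by
    rw [norm_sq_HS]
    unfold Sheets.int
    rw [Complex.re_sum]
    refine Finset.sum_congr rfl fun i _ => ?_
    rw [integral_complex_ofReal, Complex.ofReal_re]
    refine integral_congr_ae ?_
    have h4 : (vec ha - x) i = vec ha i - x i := rfl
    rw [h4]
    filter_upwards [vec_coe (S := S) ha i, hx i, Lp.coeFn_sub (vec ha i) (x i)] with z h5 h6 h7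
    rw [h7, Pi.sub_apply, h5, h6]
    rfl
  rw [h3]
  rw [dist_eq_norm] at hd
  calc ‖vec ha - x‖ ^ 2 < (Real.sqrt ε) ^ 2 := by
        exact pow_lt_pow_left₀ hd (norm_nonneg _) two_ne_zero
    _ = ε := Real.sq_sqrt hε.le

end Vale.Agent.P281.H842.TS
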