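import Vale.Agent.P281.H603.TE.FibE
import Vale.Agent.P281.H969.K.K

/-!
# P281, project T-S (helper842), block S6: the universal covering of the fibre and its group are the
same over `Y ∖ S`; simply connected coverings of the fibre
-/

open Set Filter Metric Vale.Agent.P281 Vale.Agent.P272.K
open scoped Topology ContDiff Manifold

set_option linter.unusedSectionVars false

noncomputable section

namespace Vale.Agent.P281.H842.TS

open Vale.Agent.P281.H64.TK Vale.Agent.P281.H125.KH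
open Vale.Agent.P281.H969.K.FibN (qd_of_model range_of_model QD)

/-! ### Coverings -/

/-- two simply connected coverings are isomorphic -/
theorem homeo_of_cov {B E F : Type} [TopologicalSpace B] [TopologicalSpace E]
    [TopologicalSpace F] [SimplyConnectedSpace E] [SimplyConnectedSpace F]
    [LocallyPathConnectedSpace E] [LocallyPathConnectedSpace F]
    {c : E → B} {c' : F → B} (hc : IsCoveringMap c) (hc' : IsCoveringMap c') {e₀ : E} {x₀ : F}
    (h0 : c e₀ = c' x₀) : ∃ τ : E ≃ₜ F, (∀ e, c' (τ e) = c e) ∧ τ e₀ = x₀ := by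
  obtain ⟨τ, ⟨hτ0, hτ⟩, -⟩ := hc'.existsUnique_continuousMap_lifts ⟨c, hc.continuous⟩ e₀ x₀ h0.symm
  obtain ⟨τ', ⟨hτ0', hτ'⟩, -⟩ := hc.existsUnique_continuousMap_lifts ⟨c', hc'.continuous⟩ x₀ e₀ h0
  have a1 : ∀ e, c' (τ e) = c e := fun e => congrFun hτ e
  have a2 : ∀ e, c (τ' e) = c' e := fun e => congrFun hτ' e
  have b1 : ∀ e, τ' (τ e) = e := fun e => by
    have := hc.eq_of_comp_eq (g₁ := fun e => τ' (τ e)) (g₂ := fun e => e)
      (τ'.continuous.comp τ.continuous) continuous_id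
      (funext fun e => by show c (τ' (τ e)) = c e; rw [a2, a1]) e₀ (by
        show τ' (τ e₀) = e₀
        rw [hτ0, hτ0'])
    exact congrFun this e
  have b2 : ∀ e, τ (τ' e) = e := fun e => by
    have := hc'.eq_of_comp_eq (g₁ := fun e => τ (τ' e)) (g₂ := fun e => e)
      (τ.continuous.comp τ'.continuous) continuous_id
      (funext fun e => by show c' (τ (τ' e)) = c' e; rw [a1, a2]) x₀ (by
        show τ (τ' x₀) = x₀
        rw [hτ0', hτ0])
    exact congrFun this e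
  exact ⟨⟨⟨τ, τ', b1, b2⟩, τ.continuous, τ'.continuous⟩, a1, hτ0⟩

section
variable {p d : ℕ} {Z Y : Type} [TopologicalSpace Z] [T2Space Z] [ChartedSpace (Cm (p + d)) Z]
  [TopologicalSpace Y] [ChartedSpace (Cm p) Y] {f : Z → Y}

/-- A model of `f` over a neighbourhood of `y`. -/
structure Mdl (f : Z → Y) (y : Y) where
  E : Type
  Γ : Type
  [tE : TopologicalSpace E]
  [t2 : T2Space E]
  [sc : SimplyConnectedSpace E]
  [gr : Group Γ]
  [act : MulAction Γ E]
  [ct : ContinuousConstSMul Γ E]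
  𝓕 : Fam p d E Γ
  q : Cm p → E → Z
  χ : OpenPartialHomeomorph Y (Cm p)
  model : Model (n := p + d) f 𝓕 χ q
  t : Cm p
  ht : t ∈ 𝓕.T
  hy : χ.symm t = y

attribute [instance] Mdl.tE Mdl.t2 Mdl.sc Mdl.gr Mdl.act Mdl.ct

/-- two models at the same point -/
theorem Mdl.iso {y : Y} (L L' : Mdl (p := p) (d := d) f y) :
    ∃ (τ : L.E ≃ₜ L'.E) (ρ : L.Γ ≃* L'.Γ), (∀ γ e, τ (γ • e) = ρ γ • τ e) ∧
      ∀ e, L'.q L'.t (τ e) = L.q L.t e :=
  H969.K.exists_iso L.model L'.model L.ht L'.ht (L.hy.trans L'.hy.symm)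

/-- the point `t'` of a model -/
def Mdl.move {y : Y} (L : Mdl (p := p) (d := d) f y) {t' : Cm p} (ht' : t' ∈ L.𝓕.T) :
    Mdl (p := p) (d := d) f (L.χ.symm t') where
  E := L.E
  Γ := L.Γ
  𝓕 := L.𝓕
  q := L.q
  χ := L.χ
  model := L.model
  t := t'
  ht := ht'
  hy := rfl

/-- change of the point -/
def Mdl.cast {y y' : Y} (L : Mdl (p := p) (d := d) f y) (h : y = y') :
    Mdl (p := p) (d := d) f y' where
  E := L.E
  Γ := L.Γ
  𝓕 := L.𝓕
  q := L.q
  χ := L.χ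
  model := L.model
  t := L.t
  ht := L.ht
  hy := L.hy.trans h

/-- the same covering and the same group, up to isomorphism -/
def Same (f : Z → Y) (y y' : Y) : Prop :=
  ∀ (L : Mdl (p := p) (d := d) f y) (L' : Mdl (p := p) (d := d) f y'),
    ∃ (τ : L.E ≃ₜ L'.E) (ρ : L.Γ ≃* L'.Γ), ∀ γ e, τ (γ • e) = ρ γ • τ e

theorem Same.symm {y y' : Y} (h : Same (p := p) (d := d) f y y') :
    Same (p := p) (d := d) f y' y := by
  intro L L'
  obtain ⟨τ, ρ, h1⟩ := h L' L
  refine ⟨τ.symm, ρ.symm, fun γ e => ?_⟩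
  apply τ.injective
  rw [h1, τ.apply_symm_apply, τ.apply_symm_apply, ρ.apply_symm_apply]

theorem Same.trans {y y' y'' : Y} (h : Same (p := p) (d := d) f y y')
    (h' : Same (p := p) (d := d) f y' y'') (L₁ : Mdl (p := p) (d := d) f y') :
    Same (p := p) (d := d) f y y'' := by
  intro L L'
  obtain ⟨τ, ρ, h1⟩ := h L L₁
  obtain ⟨τ', ρ', h2⟩ := h' L₁ L'
  refine ⟨τ.trans τ', ρ.trans ρ', fun γ e => ?_⟩
  show τ' (τ (γ • e)) = ρ' (ρ γ) • τ' (τ e)
  rw [h1, h2]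

/-- near the point of a model -/
theorem same_near {y : Y} (L : Mdl (p := p) (d := d) f y) :
    ∀ᶠ y' in 𝓝 y, Same (p := p) (d := d) f y y' := by
  have hs : y ∈ L.χ.source := by
    have h := L.χ.map_target (L.model.sub L.ht)
    rwa [L.hy] at h
  have hχ : L.χ y = L.t := by
    have h := L.χ.right_inv (L.model.sub L.ht)
    rwa [L.hy] at h
  have h1 : ∀ᶠ y' in 𝓝 y, L.χ y' ∈ L.𝓕.T := by
    have := L.χ.continuousAt hs
    refine this.eventually (p := fun t => t ∈ L.𝓕.T) ?_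
    rw [hχ]
    exact L.𝓕.isOpen.mem_nhds L.ht
  filter_upwards [h1, L.χ.open_source.mem_nhds hs] with y' h2 h3
  intro L₁ L₂
  obtain ⟨τ, ρ, h4, -⟩ := Mdl.iso L₁ L
  obtain ⟨τ', ρ', h5, -⟩ := Mdl.iso ((L.move h2).cast (L.χ.left_inv h3)) L₂
  refine ⟨τ.trans τ', ρ.trans ρ', fun γ e => ?_⟩
  show τ' (τ (γ • e)) = ρ' (ρ γ) • τ' (τ e)
  rw [h4]
  exact h5 _ _

variable [IsManifold 𝓘(ℂ, Cm (p + d)) ω Z] [T2Space Y] [IsManifold 𝓘(ℂ, Cm p) ω Y]

theorem exists_mdl (hAB : ABStmt) {S : Set Y} (hd : 0 < d)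
    (hf : ContMDiff 𝓘(ℂ, Cm (p + d)) 𝓘(ℂ, Cm p) ω f)
    (hP : H64.IsProperFibration (n := p + d) (p := p) f S) {y : Y} (hy : y ∉ S) :
    Nonempty (Mdl (p := p) (d := d) f y) := by
  obtain ⟨E, Γ, tE, t2, sc, gΓ, aΓ, cΓ, 𝓕, q, M, ht, -⟩ := hAB p d Z Y f S hd hf hP y hy
  exact ⟨⟨E, Γ, 𝓕, q, _, M, _, ht, (chartAt (Cm p) y).left_inv (mem_chart_source _ y)⟩⟩

/-- **S6a**: the universal covering of the fibre and its group are the same over `Y ∖ S`. -/
theorem same_of_conn (hAB : ABStmt) {S : Set Y} (hd : 0 < d)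
    (hf : ContMDiff 𝓘(ℂ, Cm (p + d)) 𝓘(ℂ, Cm p) ω f)
    (hP : H64.IsProperFibration (n := p + d) (p := p) f S) (hconn : IsPreconnected Sᶜ)
    {y y' : Y} (hy : y ∉ S) (hy' : y' ∉ S) : Same (p := p) (d := d) f y y' := by
  refine hconn.induction₂ (fun a b => Same (p := p) (d := d) f a b) ?_ ?_ ?_ hy hy'
  · intro x hx
    obtain ⟨L⟩ := exists_mdl (p := p) (d := d) hAB hd hf hP hx
    exact (same_near L).filter_mono nhdsWithin_le_nhds
  · intro a b c ha hb hc h1 h2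
    obtain ⟨L⟩ := exists_mdl (p := p) (d := d) hAB hd hf hP hb
    exact h1.trans h2 L
  · intro a b ha hb h
    exact h.symm

/-- **S6b**: a simply connected covering of the fibre is its universal covering. -/
theorem homeo_fibre {F : Type} [TopologicalSpace F] [T2Space F] [ChartedSpace (Cm d) F]
    [SimplyConnectedSpace F] {y : Y} {i : F → Z}
    (hi : H511.Surf.IsFibre (Cm (p + d)) (Cm d) f y i) (L : Mdl (p := p) (d := d) f y) :
    ∃ τ : L.E ≃ₜ F, ∀ e, i (τ e) = L.q L.t e := by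
  have hqd := qd_of_model L.model L.ht
  have hFc : CompactSpace F := hi.compact
  have hri : range (L.q L.t) = f ⁻¹' {y} := by
    rw [range_of_model L.model L.ht, L.hy]
  have hib : ∀ x, i x ∈ f ⁻¹' {y} := fun x => hi.fibre x
  have hcov : IsCoveringMap fun x : F => (⟨i x, hib x⟩ : f ⁻¹' {y}) :=
    H603.TE.isCovering hqd hi.hol hi.immersion hri hib
  have hQy : ∀ e, L.q L.t e ∈ f ⁻¹' {y} := by
    intro e
    rw [← hri]
    exact ⟨e, rfl⟩
  have hcov' : IsCoveringMap fun e : L.E => (⟨L.q L.t e, hQy e⟩ : f ⁻¹' {y}) :=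
    (L.model.cov L.t L.ht).homeomorph_comp
      (Homeomorph.setCongr (by rw [L.hy] : f ⁻¹' {L.χ.symm L.t} = f ⁻¹' {y}))
  obtain ⟨x'⟩ : Nonempty F := inferInstance
  obtain ⟨e₁, he₁⟩ : i x' ∈ range (L.q L.t) := by
    rw [hri]
    exact hib x'
  have hLP : LocallyPathConnectedSpace L.E := H603.TE.locPath (L.𝓕.at _ L.ht)
  have hLF : LocallyPathConnectedSpace F := ChartedSpace.locallyPathConnectedSpace (Cm d) F
  obtain ⟨τ, h1, -⟩ := homeo_of_cov hcov' hcov (e₀ := e₁) (x₀ := x') (Subtype.ext he₁)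
  exact ⟨τ, fun e => congrArg Subtype.val (h1 e)⟩

/-- the group, when a simply connected covering of the fibre has at most `k` sheets -/
theorem card_of_fibre {F : Type} [TopologicalSpace F] [T2Space F] [ChartedSpace (Cm d) F]
    [SimplyConnectedSpace F] {y : Y} {i : F → Z}
    (hi : H511.Surf.IsFibre (Cm (p + d)) (Cm d) f y i) (L : Mdl (p := p) (d := d) f y) {k : ℕ}
    (hk : ∀ x, (i ⁻¹' {x}).encard ≤ k) : Finite L.Γ ∧ Nat.card L.Γ ≤ k := by
  obtain ⟨τ, hτ⟩ := homeo_fibre hi L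
  obtain ⟨e⟩ : Nonempty L.E := inferInstance
  have hfin : (i ⁻¹' {L.q L.t e}).Finite :=
    Set.finite_of_encard_le_coe (hk _)
  have hmem : ∀ γ : L.Γ, τ (γ • e) ∈ i ⁻¹' {L.q L.t e} := fun γ => by
    show i (τ (γ • e)) = _
    rw [hτ]
    exact ((L.model.eq _ L.ht e (γ • e)).2 ⟨γ, rfl⟩).symm
  have hinj : Function.Injective fun γ : L.Γ => (⟨τ (γ • e), hmem γ⟩ : i ⁻¹' {L.q L.t e}) := by
    intro γ γ' h
    have h1 : γ • e = γ' • e := τ.injective (congrArg Subtype.val h)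
    have h2 : (γ'⁻¹ * γ) • e = e := by rw [mul_smul, h1, inv_smul_smul]
    exact (inv_mul_eq_one.1 (H603.K.Sh.free (L.𝓕.at L.t L.ht) h2)).symm
  have : Finite (i ⁻¹' {L.q L.t e}) := hfin
  refine ⟨Finite.of_injective _ hinj, (Nat.card_le_card_of_injective _ hinj).trans ?_⟩
  have h3 := hk (L.q L.t e)
  rw [← hfin.cast_ncard_eq] at h3
  exact_mod_cast h3

/-- **S6**: if one fibre over `Y ∖ S` has a simply connected covering `F` with at most `k` sheets,
then all the models over `Y ∖ S` have a compact covering `E`, homeomorphic to `F`, and a group with at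
most `k` elements. -/
theorem s6 (hAB : ABStmt) {S : Set Y} (hd : 0 < d)
    (hf : ContMDiff 𝓘(ℂ, Cm (p + d)) 𝓘(ℂ, Cm p) ω f)
    (hP : H64.IsProperFibration (n := p + d) (p := p) f S) (hconn : IsPreconnected Sᶜ)
    {F : Type} [TopologicalSpace F] [T2Space F] [ChartedSpace (Cm d) F] [SimplyConnectedSpace F]
    {y : Y} (hy : y ∉ S) {i : F → Z} (hi : H511.Surf.IsFibre (Cm (p + d)) (Cm d) f y i) {k : ℕ}
    (hk : ∀ x, (i ⁻¹' {x}).encard ≤ k) {y' : Y} (hy' : y' ∉ S)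
    (L : Mdl (p := p) (d := d) f y') :
    CompactSpace L.E ∧ Nonempty (L.E ≃ₜ F) ∧ Finite L.Γ ∧ Nat.card L.Γ ≤ k := by
  obtain ⟨L₀⟩ := exists_mdl (p := p) (d := d) hAB hd hf hP hy
  obtain ⟨τ, ρ, -⟩ := same_of_conn hAB hd hf hP hconn hy' hy L L₀
  obtain ⟨σ, -⟩ := homeo_fibre hi L₀
  obtain ⟨h1, h2⟩ := card_of_fibre hi L₀ hk
  have hFc : CompactSpace F := hi.compact
  refine ⟨(τ.trans σ).symm.compactSpace, ⟨τ.trans σ⟩, Finite.of_equiv _ ρ.symm.toEquiv, ?_⟩
  rw [Nat.card_congr ρ.toEquiv]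
  exact h2

end

end Vale.Agent.P281.H842.TS
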