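import Vale.Agent.P281.H842.TS.Wirt
import Mathlib.Analysis.InnerProductSpace.PiL2
import Mathlib.MeasureTheory.Function.L2Space

/-!
# P281, project T-S, block C3 (helper842): coordinate changes and square integrable forms
-/

open Set Filter Metric MeasureTheory Vale.Agent.P272.K
open scoped Topology ContDiff ComplexConjugate ENNReal InnerProductSpace

set_option linter.unusedSectionVars false

noncomputable section

namespace Vale.Agent.P281.H842.TS

open Vale.Agent.P281.H64.TK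
open Vale.Agent.P281.H864.K (V co co_eq exists_P P_disj P_subset P_subset3 meas_P piece Nice
  nice_self jd det_fderiv_real isOpen_V isClosed_V uniq ball13)

variable {d : ℕ} {E Γ : Type} [TopologicalSpace E] [Group Γ] [Subsingleton Γ] [MulAction Γ E]

/-- the change of coordinates from the sheet `i` to the sheet `j` -/
def tt (S : Sheets d E Γ) (i j : Fin S.N) (z : Cm d) : Cm d := co S j (S.σ i z)

/-- the part of the sheet `i` in the sheet `j` -/
def UU (S : Sheets d E Γ) (i j : Fin S.N) : Set (Cm d) :=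
  {z | z ∈ ball (0 : Cm d) 3 ∧ S.σ i z ∈ V S j (ball 0 3)}

theorem sm1 (γ : Γ) (e : E) : γ • e = e := by
  rw [Subsingleton.elim γ 1, one_smul]

theorem mem_V1 {S : Sheets d E Γ} {j : Fin S.N} {A : Set (Cm d)} {e : E} :
    e ∈ V S j A ↔ ∃ w ∈ A, S.σ j w = e := by
  constructor
  · rintro ⟨γ, w, hw, h⟩
    exact ⟨w, hw, by rw [← h, sm1]⟩
  · rintro ⟨w, hw, h⟩
    exact ⟨1, w, hw, by rw [one_smul, h]⟩

variable {S : Sheets d E Γ} {i j k : Fin S.N} {z w : Cm d}

theorem tt_eq (hw : w ∈ ball (0 : Cm d) 3) (h : S.σ i z = S.σ j w) : tt S i j z = w :=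
  co_eq (γ := 1) hw (by rw [one_smul, h])

theorem mem_UU (hz : z ∈ ball (0 : Cm d) 3) (hw : w ∈ ball (0 : Cm d) 3)
    (h : S.σ i z = S.σ j w) : z ∈ UU S i j := ⟨hz, mem_V1.2 ⟨w, hw, h.symm⟩⟩

theorem tt_spec (h : z ∈ UU S i j) :
    tt S i j z ∈ ball (0 : Cm d) 3 ∧ S.σ i z = S.σ j (tt S i j z) := by
  obtain ⟨w, hw, he⟩ := mem_V1.1 h.2
  rw [tt_eq hw he.symm]
  exact ⟨hw, he.symm⟩

theorem UU_sub : UU S i j ⊆ ball 0 3 := fun _ h => h.1

theorem tt_self (hz : z ∈ ball (0 : Cm d) 3) : tt S i i z = z := tt_eq hz rfl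

theorem mem_UU_self (hz : z ∈ ball (0 : Cm d) 3) : z ∈ UU S i i := mem_UU hz hz rfl

theorem tt_symm (h : z ∈ UU S i j) : tt S i j z ∈ UU S j i ∧ tt S j i (tt S i j z) = z :=
  ⟨mem_UU (tt_spec h).1 h.1 (tt_spec h).2.symm, tt_eq h.1 (tt_spec h).2.symm⟩

theorem tt_trans (h : z ∈ UU S i j) (h' : tt S i j z ∈ UU S j k) :
    z ∈ UU S i k ∧ tt S i k z = tt S j k (tt S i j z) := by
  have h1 := tt_spec h
  have h2 := tt_spec h'
  exact ⟨mem_UU h.1 h2.1 (h1.2.trans h2.2), tt_eq h2.1 (h1.2.trans h2.2)⟩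

theorem tt_mem' (h : z ∈ UU S i j) (h' : z ∈ UU S i k) : tt S i j z ∈ UU S j k := by
  refine mem_UU (tt_spec h).1 (tt_spec h').1 ?_
  rw [← (tt_spec h).2, ← (tt_spec h').2]

theorem tt_loc {θ : Cm d → Cm d} (hθ : ContinuousAt θ z) (hw : θ z ∈ ball (0 : Cm d) 3)
    (h : ∀ᶠ u in 𝓝 z, S.σ i u = S.σ j (θ u)) : tt S i j =ᶠ[𝓝 z] θ := by
  filter_upwards [h, hθ.eventually (isOpen_ball.mem_nhds hw)] with u h1 h2
  exact tt_eq h2 h1

theorem tt_an' (h : z ∈ UU S i j) : AnalyticAt ℂ (tt S i j) z ∧ ∀ᶠ u in 𝓝 z, u ∈ UU S i j := by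
  obtain ⟨h1, h2⟩ := tt_spec h
  obtain ⟨θ, h3, h4, h5⟩ := S.hol i j z h.1 _ h1 1 (by rw [one_smul]; exact h2)
  have h6 : ∀ᶠ u in 𝓝 z, S.σ i u = S.σ j (θ u) := h5.mono fun u hu => by rw [hu, one_smul]
  have hw : θ z ∈ ball (0 : Cm d) 3 := by rw [h4]; exact h1
  refine ⟨h3.congr (tt_loc h3.continuousAt hw h6).symm, ?_⟩
  filter_upwards [h6, h3.continuousAt.eventually (isOpen_ball.mem_nhds hw),
    isOpen_ball.mem_nhds h.1] with u a b c
  exact mem_UU c b a

theorem tt_an (h : z ∈ UU S i j) : AnalyticAt ℂ (tt S i j) z := (tt_an' h).1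

theorem isOpen_UU : IsOpen (UU S i j) := isOpen_iff_mem_nhds.2 fun _ h => (tt_an' h).2

theorem tt_sig (h : z ∈ UU S i j) : ∀ᶠ u in 𝓝 z, S.σ i u = S.σ j (tt S i j u) :=
  mem_of_superset (isOpen_UU.mem_nhds h) fun _ hu => (tt_spec hu).2

theorem jac_trans (h : z ∈ UU S i j) (h' : tt S i j z ∈ UU S j k) :
    jac (tt S i k) z = jac (tt S j k) (tt S i j z) * jac (tt S i j) z := by
  have h1 : tt S i k =ᶠ[𝓝 z] fun u => tt S j k (tt S i j u) := by
    filter_upwards [isOpen_UU.mem_nhds h,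
      (tt_an h).continuousAt.eventually (isOpen_UU.mem_nhds h')] with u a b
    exact (tt_trans a b).2
  rw [Vale.Agent.P281.H864.K.jac_congr h1]
  exact Vale.Agent.P281.H864.K.jac_comp rfl (tt_an h').differentiableAt (tt_an h).differentiableAt

theorem jac_self (hz : z ∈ ball (0 : Cm d) 3) : jac (tt S i i) z = 1 := by
  have h1 : tt S i i =ᶠ[𝓝 z] fun u => u := by
    filter_upwards [isOpen_ball.mem_nhds hz] with u hu
    exact tt_self hu
  rw [Vale.Agent.P281.H864.K.jac_congr h1]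
  exact Vale.Agent.P281.H864.K.jac_id z

/-! ### Forms of type `(0, d)` -/

/-- the rule for a change of sheets, of a form of type `(0, d)` -/
def IsForm (S : Sheets d E Γ) (F : Fin S.N → Cm d → ℂ) : Prop :=
  ∀ i j, ∀ z ∈ UU S i j, F i z = F j (tt S i j z) * conj (jac (tt S i j) z).det

theorem isForm_of {F : Fin S.N → Cm d → ℂ}
    (h : ∀ i j, ∀ z ∈ ball (0 : Cm d) 3, ∀ z' ∈ ball (0 : Cm d) 3, ∀ θ : Cm d → Cm d,
      AnalyticAt ℂ θ z → θ z = z' → (∀ᶠ u in 𝓝 z, S.σ i u = S.σ j (θ u)) →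
        F i z = F j z' * conj (jac θ z).det) : IsForm S F := by
  intro i j z hz
  exact h i j z hz.1 _ (tt_spec hz).1 _ (tt_an hz) rfl (tt_sig hz)

/-- the points of the sheet `j` in the piece number `i` -/
def Q (S : Sheets d E Γ) (j i : Fin S.N) : Set (Cm d) := piece S (S.σ j) (ball 0 3) i

theorem Q_spec (h : z ∈ Q S j i) : z ∈ UU S j i ∧ tt S j i z ∈ S.P i := by
  obtain ⟨h1, h2⟩ := h
  obtain ⟨w, hw, he⟩ := mem_V1.1 h2
  refine ⟨mem_UU h1 (P_subset3 S i hw) he.symm, ?_⟩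
  rw [tt_eq (P_subset3 S i hw) he.symm]
  exact hw

theorem mem_Q (h : z ∈ UU S j i) (h' : tt S j i z ∈ S.P i) : z ∈ Q S j i :=
  ⟨h.1, mem_V1.2 ⟨_, h', (tt_spec h).2.symm⟩⟩

theorem Q_unique {l : Fin S.N} (h : z ∈ Q S j i) (h' : z ∈ Q S j l) : l = i := P_disj h'.2 h.2

theorem exists_Q (hz : z ∈ ball (0 : Cm d) 3) (j : Fin S.N) : ∃ i, z ∈ Q S j i := by
  obtain ⟨i, hi⟩ := exists_P S (S.σ j z)
  exact ⟨i, hz, hi⟩

theorem P_Q (hz : z ∈ S.P j) : z ∈ Q S j j := by
  have h3 := P_subset3 S j hz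
  refine mem_Q (mem_UU_self h3) ?_
  rw [tt_self h3]
  exact hz

variable [ContinuousConstSMul Γ E]

theorem meas_Q (j i : Fin S.N) : MeasurableSet (Q S j i) := (nice_self S j).meas_piece i

variable (S) in
/-- square integrable `(0,d)`-forms, on the fundamental domain -/
abbrev HS : Type := PiLp 2 fun i : Fin S.N => Lp ℂ 2 (volume.restrict (S.P i))

instance finP : IsFiniteMeasure (volume.restrict (S.P i)) :=
  ⟨by
    rw [Measure.restrict_apply_univ]
    exact (measure_mono (P_subset S i)).trans_lt measure_ball_lt_top⟩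

instance finB : IsFiniteMeasure (volume.restrict (ball (0 : Cm d) 3)) :=
  ⟨by rw [Measure.restrict_apply_univ]; exact measure_ball_lt_top⟩

theorem memLp_of_cont {G : Cm d → ℂ} (hG : ContinuousOn G (ball 0 3)) (i : Fin S.N) :
    MemLp G 2 (volume.restrict (S.P i)) := by
  have h1 : ContinuousOn G (closedBall 0 1) :=
    hG.mono (closedBall_subset_ball (by norm_num))
  obtain ⟨C, hC⟩ := (isCompact_closedBall (0 : Cm d) 1).exists_bound_of_continuousOn h1
  refine MemLp.of_bound ?_ C ?_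
  · exact (hG.mono (P_subset3 S i)).aestronglyMeasurable (meas_P S i)
  · filter_upwards [ae_restrict_mem (meas_P S i)] with z hz
    exact hC z (ball_subset_closedBall (P_subset S i hz))

/-- the element of `HS` given by continuous functions -/
def vec {G : Fin S.N → Cm d → ℂ} (hG : ∀ i, ContinuousOn (G i) (ball 0 3)) : HS S :=
  WithLp.toLp 2 fun i => (memLp_of_cont (hG i) i).toLp (G i)

theorem vec_coe {G : Fin S.N → Cm d → ℂ} (hG : ∀ i, ContinuousOn (G i) (ball 0 3))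
    (i : Fin S.N) :
    ((vec hG i : Lp ℂ 2 (volume.restrict (S.P i))) : Cm d → ℂ) =ᵐ[volume.restrict (S.P i)] G i :=
  MemLp.coeFn_toLp (memLp_of_cont (hG i) i)

/-- the form on the sheet `j` given by a square integrable form on the fundamental domain -/
def Bf (b : HS S) (j : Fin S.N) (z : Cm d) : ℂ :=
  ∑ i, (Q S j i).indicator
    (fun z => ((b i : Lp ℂ 2 (volume.restrict (S.P i))) : Cm d → ℂ) (tt S j i z) *
      conj (jac (tt S j i) z).det) z

theorem Bf_eq (b : HS S) (hz : z ∈ Q S j i) : Bf b j z =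
    ((b i : Lp ℂ 2 (volume.restrict (S.P i))) : Cm d → ℂ) (tt S j i z) *
      conj (jac (tt S j i) z).det := by
  rw [Bf, Finset.sum_eq_single i]
  · rw [indicator_of_mem hz]
  · intro l _ hl
    rw [indicator_of_notMem]
    intro h
    exact hl (Q_unique hz h)
  · intro h
    exact absurd (Finset.mem_univ i) h

theorem Bf_form (b : HS S) : IsForm S (Bf b) := by
  intro i j z hz
  obtain ⟨l, hl⟩ := exists_Q (tt_spec hz).1 j
  have hl' := Q_spec hl
  have h1 := tt_trans hz hl'.1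
  have h2 : z ∈ Q S i l := by
    refine mem_Q h1.1 ?_
    rw [h1.2]
    exact hl'.2
  rw [Bf_eq b h2, Bf_eq b hl, h1.2, jac_trans hz hl'.1, Matrix.det_mul, map_mul, mul_assoc]

theorem Bf_P (b : HS S) (hz : z ∈ S.P j) : Bf b j z =
    ((b j : Lp ℂ 2 (volume.restrict (S.P j))) : Cm d → ℂ) z := by
  have h3 := P_subset3 S j hz
  rw [Bf_eq b (P_Q hz), jac_self h3, tt_self h3, Matrix.det_one, map_one, mul_one]

theorem cont_tt : ContinuousOn (tt S j i) (UU S j i) := fun _ hz =>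
  (tt_an hz).continuousAt.continuousWithinAt

theorem cont_det : ContinuousOn (fun z => (jac (tt S j i) z).det) (UU S j i) := fun z hz => by
  refine ContinuousAt.continuousWithinAt ?_
  simp only [Matrix.det_apply]
  refine tendsto_finsetSum _ fun σ _ => ?_
  refine Tendsto.const_smul ?_ _
  exact tendsto_finsetProd _ fun l _ => (smooth_jac (tt_an hz) _ _).continuousAt

theorem aesm_Bf (b : HS S) (j : Fin S.N) :
    AEStronglyMeasurable (Bf b j) (volume.restrict (ball 0 3)) := by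
  change AEStronglyMeasurable (fun z => ∑ i, (Q S j i).indicator
    (fun z => ((b i : Lp ℂ 2 (volume.restrict (S.P i))) : Cm d → ℂ) (tt S j i z) *
      conj (jac (tt S j i) z).det) z) (volume.restrict (ball 0 3))
  refine Finset.aestronglyMeasurable_fun_sum _ fun i _ => ?_
  rw [aestronglyMeasurable_indicator_iff (meas_Q j i)]
  have h0 : Q S j i ⊆ UU S j i := fun z hz => (Q_spec hz).1
  have h1 : (volume.restrict (ball (0 : Cm d) 3)).restrict (Q S j i) ≤
      volume.restrict (Q S j i) := Measure.restrict_mono subset_rfl Measure.restrict_le_self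
  refine AEStronglyMeasurable.mono_measure ?_ h1
  refine AEStronglyMeasurable.mul ?_ ?_
  · exact AEStronglyMeasurable.comp_aemeasurable
      (StronglyMeasurable.aestronglyMeasurable (Lp.stronglyMeasurable (b i)))
      ((cont_tt.mono h0).aemeasurable (meas_Q j i))
  · exact (Complex.continuous_conj.comp_continuousOn
      (cont_det.mono h0)).aestronglyMeasurable (meas_Q j i)

theorem Lp_sq_lt_top (b : HS S) (i : Fin S.N) :
    ∫⁻ z in S.P i, ‖((b i : Lp ℂ 2 (volume.restrict (S.P i))) : Cm d → ℂ) z‖ₑ ^ 2 < ⊤ := by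
  have h := (Lp.memLp (b i)).eLpNorm_lt_top
  rw [eLpNorm_lt_top_iff_lintegral_rpow_enorm_lt_top (by norm_num) (by norm_num)] at h
  simpa using h

theorem det_jd (hz : z ∈ UU S j i) :
    |(jd S (S.σ j) i z).det| = ‖(jac (tt S j i) z).det‖ ^ 2 := by
  have h1 : jd S (S.σ j) i z = fderiv ℝ (tt S j i) z := rfl
  rw [h1, det_fderiv_real (tt_an hz).differentiableAt, abs_of_nonneg (by positivity)]

theorem Bf_sq (b : HS S) (j : Fin S.N) : ∫⁻ z in ball 0 3, ‖Bf b j z‖ₑ ^ 2 < ⊤ := by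
  refine ((nice_self S j).lint
    (fun i z => ‖((b i : Lp ℂ 2 (volume.restrict (S.P i))) : Cm d → ℂ) z‖ₑ ^ 2) _ ?_).trans_lt ?_
  · intro i v hv
    have hv' : v ∈ Q S j i := hv
    show ‖Bf b j v‖ₑ ^ 2 = _
    rw [Bf_eq b hv', det_jd (Q_spec hv').1, enorm_mul, mul_pow, mul_comm]
    congr 1
    rw [← ofReal_norm, RCLike.norm_conj, ENNReal.ofReal_pow (norm_nonneg _)]
  · exact ENNReal.sum_lt_top.2 fun i _ => Lp_sq_lt_top b i

theorem Bf_memLp (b : HS S) (j : Fin S.N) : MemLp (Bf b j) 2 (volume.restrict (ball 0 3)) := by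
  refine ⟨aesm_Bf b j, ?_⟩
  rw [eLpNorm_lt_top_iff_lintegral_rpow_enorm_lt_top (by norm_num) (by norm_num)]
  simpa using Bf_sq b j

theorem Bf_int (b : HS S) (j : Fin S.N) : IntegrableOn (Bf b j) (ball 0 3) :=
  (Bf_memLp b j).integrable (by norm_num)

theorem Bf_int_P (b : HS S) (j : Fin S.N) : IntegrableOn (Bf b j) (S.P j) :=
  (Bf_int b j).mono_set (P_subset3 S j)

/-- the integral of a density with support in one sheet -/
theorem int_one {D : Fin S.N → Cm d → ℂ} (j : Fin S.N) (hd : ∀ i, IntegrableOn (D i) (S.P i))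
    (hj : IntegrableOn (D j) (ball 0 3))
    (hc : ∀ i, ∀ z ∈ UU S j i, D j z = ((‖(jac (tt S j i) z).det‖ ^ 2 : ℝ) : ℂ) * D i (tt S j i z))
    (h0 : ∀ i, ∀ z ∈ S.P i, z ∉ UU S i j → D i z = 0) :
    ∑ i, ∫ z in S.P i, D i z = ∫ z in ball 0 3, D j z := by
  have h1 := Vale.Agent.P281.H864.K.int_family (S := S) (M := 1) (q := fun _ => S.σ j)
    (A := fun _ => ball (0 : Cm d) 3) (fun _ => nice_self S j)
    (fun k l hkl => absurd (Subsingleton.elim k l) hkl) (D := D) (g := fun _ => D j)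
    hd (fun _ => hj)
    (fun _ i v hv => by
      have hv' : v ∈ Q S j i := hv
      rw [det_jd (Q_spec hv').1, Complex.real_smul]
      exact hc i v (Q_spec hv').1)
    (fun i z hz hne => by
      by_contra hcon
      refine hne (h0 i z hz fun h => hcon ⟨0, 1, tt S i j z, (tt_spec h).1, ?_⟩)
      show (1 : Γ) • S.σ j (tt S i j z) = S.σ i z
      rw [one_smul, ← (tt_spec h).2])
  simpa using h1.symm

end Vale.Agent.P281.H842.TS
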